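import Vale.Agent.P088.R2.H551.E.EstZ
import Vale.Agent.P088.R2.H551.E.FDef

/-!
# P088, stage 3: from zone inequalities to the estimate with localised gains

The gain `e` of the first order quantities is cut off by `c`, `G` is the gain of order zero. The pointwise costs are
`gC` of `H935.Gn` with the weight `2 e c(y)` (slot `y`, for `a`) resp. `2 e c(x)` (slot `x`, for
`b`): only the supports of `c(y)`, `c(x)` matter.
-/

open MeasureTheory Set Filter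
open scoped ContDiff Topology Matrix

noncomputable section

namespace Vale.Agent.P088.R2.H551.E

open Vale.Agent.P088.LR Vale.Agent.P088.HY Vale.Agent.P088.R2.H961.GW
open Vale.Agent.P088.R2.H935.Gn (gC sXX Ell)

variable {n : ℕ} {s₁ s₂ : MF n} {W w : VV n → ℝ} {a b : VV n → ℝ} {c : V n → ℝ}

theorem gfc_eq (s₁ s₂ : MF n) (c : V n → ℝ) (W a b : VV n → ℝ) (z : VV n) :
    c z.2 * ∑ k, H960.W.YY (fy s₂) W a k z ^ 2 + c z.1 * ∑ i, H960.W.YY (fx s₁) W b i z ^ 2 +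
      c z.1 * ∑ i, H960.W.XX (fx s₁) W a i z ^ 2 + c z.2 * ∑ k, H960.W.XX (fy s₂) W b k z ^ 2 =
      gfc c W a b z := by
  unfold gfc H960.W.YY H960.W.XX
  simp only [fx_D, fy_D]
  simp only [Finset.mul_sum, ← Finset.sum_add_distrib]
  refine Finset.sum_congr rfl fun i _ => ?_
  ring

/-- The cost of the gain of the slot `y`, at `z`. -/
def cy (s₁ s₂ : MF n) (W : VV n → ℝ) (c : V n → ℝ) (e d K : ℝ) (z : VV n) : ℝ :=
  gC (fx s₁) (fy s₂) K (fun z => 2 * e * c z.2) (fun _ => d) (fun _ => 0) W z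

/-- The cost of the gain of the slot `x`, at `z`. -/
def cx (s₁ s₂ : MF n) (W : VV n → ℝ) (c : V n → ℝ) (e d K : ℝ) (z : VV n) : ℝ :=
  gC (fy s₂) (fx s₁) K (fun z => 2 * e * c z.1) (fun _ => d) (fun _ => 0) W z

/-- **The bridge with localised gains.** -/
theorem EstF_of (hs₁ : SmM s₁) (hs₂ : SmM s₂) (hy₁ : ∀ x, (s₁ x).IsSymm)
    (hy₂ : ∀ x, (s₂ x).IsSymm) (el₁ : El s₁) (el₂ : El s₂) (hW : ContDiff ℝ ∞ W)
    (cw : Continuous w) (hc : ContDiff ℝ ∞ c) (c0 : ∀ x, 0 ≤ c x) {m : Q8 (VV n)}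
    (cm : m.Ct univ)
    (h : ∀ a b, Te univ a → Te univ b → In univ (fun _ => 1)
      (fden s₁ s₂ (fun _ => 0) (fun _ => 0) W m a b) ≤
      TT (fx s₁) (fy s₂) univ (fun _ => 1) (fun _ => 0) (fun _ => 0) W a b)
    {e G d K : ℝ} (he : 0 ≤ e) (hd : 0 ≤ d) (hK : 0 < K)
    (mκ : ∀ z, K ≤ m.κ z) (my : ∀ z, 0 ≤ m.ζy z) (mb : ∀ z, 0 ≤ m.wb z) (mc : ∀ z, 0 ≤ m.wc z)
    (c₁ : ∀ z, e * c z.1 + 2 * d ≤ m.ζ₁ z) (c₂ : ∀ z, e * c z.2 + 2 * d ≤ m.ζ₂ z)
    (c₃ : ∀ z, w z + G + cy s₁ s₂ W c e d K z ≤ m.w₁ z)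
    (c₄ : ∀ z, w z + G + cx s₁ s₂ W c e d K z ≤ m.w₂ z) :
    EstF s₁ s₂ W w e G c := by
  intro a b ha ca hb cb
  have hU := isOpen_univ (X := VV n)
  have ta : Te univ a := ⟨ha, ca, subset_univ _⟩
  have tb : Te univ b := ⟨hb, cb, subset_univ _⟩
  have ox := fx_ok hs₁ hy₁ hU
  have oy := fy_ok hs₂ hy₂ hU
  have z₀ : Sm univ fun _ : VV n => (0 : ℝ) := contDiffOn_const
  have sW : Sm univ W := hW.contDiffOn
  have E₁ : Ell (fx s₁) univ := fun z _ ξ => el₁ z.1 ξ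
  have E₂ : Ell (fy s₂) univ := fun z _ ξ => el₂ z.2 ξ
  have s1 : Sm univ fun z : VV n => c z.1 := (hc.comp contDiff_fst).contDiffOn
  have s2 : Sm univ fun z : VV n => c z.2 := (hc.comp contDiff_snd).contDiffOn
  have o1 : Sm univ fun z : VV n => 2 * e * c z.2 := contDiffOn_const.mul s2
  have o2 : Sm univ fun z : VV n => 2 * e * c z.1 := contDiffOn_const.mul s1
  rw [← TT_flat0 hs₁ hs₂ hy₁ hy₂ hW ta tb]
  refine le_trans ?_ (h a b ta tb)
  have tw : Te univ fun z => a z ^ 2 + b z ^ 2 := (ta.sq hU).add hU (tb.sq hU)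
  have iw : IntegrableOn (fun z : VV n => 1 * (w z * (a z ^ 2 + b z ^ 2))) univ :=
    ct_int hU (θ := fun _ : VV n => (1 : ℝ)) contDiffOn_const cw.continuousOn tw
  have im : IntegrableOn (fun z : VV n => 1 * fden s₁ s₂ (fun _ => 0) (fun _ => 0) W m a b z)
      univ := Q8.int_dens ox oy z₀ z₀ sW ta tb cm
  have tX : Te univ fun z => ∑ i, H960.W.XX (fx s₁) W a i z ^ 2 := H935.Gn.tqX ox sW ta
  have tX' : Te univ fun z => ∑ i, H960.W.XX (fy s₂) W b i z ^ 2 := H935.Gn.tqX oy sW tb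
  have tY : Te univ fun z => ∑ i, H960.W.YY (fy s₂) W a i z ^ 2 := H935.Gn.tqY oy sW ta
  have tY' : Te univ fun z => ∑ i, H960.W.YY (fx s₁) W b i z ^ 2 := H935.Gn.tqY ox sW tb
  have sY : Te univ (H960.W.sYY (fy s₂) W a) := H960.W.tsYY oy sW ta
  have sY' : Te univ (H960.W.sYY (fx s₁) W b) := H960.W.tsYY ox sW tb
  -- the remaining part of the gain and the weight
  obtain ⟨r, hr⟩ : ∃ r : VV n → ℝ, r = fun z => e * (c z.1 * ∑ i, H960.W.XX (fx s₁) W a i z ^ 2 +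
      c z.2 * ∑ k, H960.W.XX (fy s₂) W b k z ^ 2) + G * (a z ^ 2 + b z ^ 2) := ⟨_, rfl⟩
  have tr : Te univ r := by
    rw [hr]
    exact (((tX.mul_left hU s1).add hU (tX'.mul_left hU s2)).cmul hU e).add hU (tw.cmul hU G)
  have ir' : IntegrableOn (fun z => 1 * r z) univ := H961.GW.te_int hU contDiffOn_const tr
  have ir : IntegrableOn (fun z => 1 * (r z + w z * (a z ^ 2 + b z ^ 2))) univ := by
    refine (ir'.add iw).congr_fun (fun z _ => ?_) MeasurableSet.univ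
    simp only [Pi.add_apply]
    ring
  have g := H935.Gn.gain (σ := fx s₁) (τ := fy s₂) (U := univ) (θ := fun _ => 1)
    (v₁ := fun _ => 0) (v₂ := fun _ => 0) (W := W) (a := a) (b := b)
    (om₁ := fun z => 2 * e * c z.2) (om₂ := fun z => 2 * e * c z.1)
    (del₁ := fun _ => d) (del₂ := fun _ => d) ox oy E₁.psd E₂.psd z₀ z₀ sW ta tb
    o1 o2 contDiffOn_const contDiffOn_const (fun _ _ => hd) (fun _ _ => hd) hK
    (m := fun z => fden s₁ s₂ (fun _ => 0) (fun _ => 0) W m a b z)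
    (r := fun z => r z + w z * (a z ^ 2 + b z ^ 2)) im ir (fun z _ => ?_)
  · -- conclusion
    have e0 : In univ (fun _ => 1) (fun z => r z + w z * (a z ^ 2 + b z ^ 2)) =
        In univ (fun _ => 1) r + ∫ z, w z * (a z ^ 2 + b z ^ 2) := by
      rw [In_univ, In_univ]
      refine integral_add (f := r) ?_ ?_
      · simpa [IntegrableOn] using ir'
      · simpa [IntegrableOn] using iw
    have y1 : In univ (fun _ => 1) (fun z => e * (c z.2 * ∑ k, H960.W.YY (fy s₂) W a k z ^ 2)) ≤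
        In univ (fun _ => 1) (fun z => 2 * e * c z.2 * H960.W.sYY (fy s₂) W a z) := by
      refine In_mono hU ox.tp ox.ts ((tY.mul_left hU s2).cmul hU e) (sY.mul_left hU o1)
        fun z _ => ?_
      have k := mul_le_mul_of_nonneg_left (E₂ z (mem_univ z) fun i => H960.W.YY (fy s₂) W a i z).1
        (mul_nonneg (mul_nonneg zero_le_two he) (c0 z.2))
      have k2 : H960.W.sYY (fy s₂) W a z = ∑ i, ∑ j, (fy s₂).s i j z *
        H960.W.YY (fy s₂) W a i z * H960.W.YY (fy s₂) W a j z := rfl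
      rw [k2]
      linarith
    have y2 : In univ (fun _ => 1) (fun z => e * (c z.1 * ∑ k, H960.W.YY (fx s₁) W b k z ^ 2)) ≤
        In univ (fun _ => 1) (fun z => 2 * e * c z.1 * H960.W.sYY (fx s₁) W b z) := by
      refine In_mono hU ox.tp ox.ts ((tY'.mul_left hU s1).cmul hU e) (sY'.mul_left hU o2)
        fun z _ => ?_
      have k := mul_le_mul_of_nonneg_left (E₁ z (mem_univ z) fun i => H960.W.YY (fx s₁) W b i z).1
        (mul_nonneg (mul_nonneg zero_le_two he) (c0 z.1))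
      have k2 : H960.W.sYY (fx s₁) W b z = ∑ i, ∑ j, (fx s₁).s i j z *
        H960.W.YY (fx s₁) W b i z * H960.W.YY (fx s₁) W b j z := rfl
      rw [k2]
      linarith
    have e1 : e * (∫ z, gfc c W a b z) + G * ∫ z, (a z ^ 2 + b z ^ 2) =
        In univ (fun _ => 1) (fun z => e * (c z.2 * ∑ k, H960.W.YY (fy s₂) W a k z ^ 2)) +
        In univ (fun _ => 1) (fun z => e * (c z.1 * ∑ k, H960.W.YY (fx s₁) W b k z ^ 2)) +
        In univ (fun _ => 1) r := by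
      have tgf : Te univ (gfc c W a b) := by
        refine Te.congr (f := fun z => c z.2 * ∑ k, H960.W.YY (fy s₂) W a k z ^ 2 +
          c z.1 * ∑ i, H960.W.YY (fx s₁) W b i z ^ 2 +
          c z.1 * ∑ i, H960.W.XX (fx s₁) W a i z ^ 2 +
          c z.2 * ∑ k, H960.W.XX (fy s₂) W b k z ^ 2) ?_ fun z => (gfc_eq s₁ s₂ c W a b z).symm
        exact (((tY.mul_left hU s2).add hU (tY'.mul_left hU s1)).add hU
          (tX.mul_left hU s1)).add hU (tX'.mul_left hU s2)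
      rw [← integral_const_mul, ← integral_const_mul, ← integral_add
        (te_itg (tgf.cmul hU e)) (te_itg (tw.cmul hU G)), ← In_add hU ox.ts ((tY.mul_left hU s2).cmul hU e)
        ((tY'.mul_left hU s1).cmul hU e), ← In_add hU ox.ts
        (((tY.mul_left hU s2).cmul hU e).add hU ((tY'.mul_left hU s1).cmul hU e)) tr, In_univ]
      refine integral_congr_ae (ae_of_all _ fun z => ?_)
      simp only
      rw [← gfc_eq s₁ s₂, hr]
      ring
    rw [e0] at g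
    rw [add_assoc, e1]
    have e2 : In univ (fun _ => 1) (fun z => fden s₁ s₂ (fun _ => 0) (fun _ => 0) W m a b z) =
      In univ (fun _ => 1) (fden s₁ s₂ (fun _ => 0) (fun _ => 0) W m a b) := rfl
    rw [e2] at g
    linarith
  · -- pointwise
    have k0 := mul_le_mul_of_nonneg_right (mκ z) (sqd_nonneg (fx s₁) (fy s₂) (fun _ => 0)
      (fun _ => 0) W a b z)
    have k3 := mul_nonneg (my z) (Q8.nY_nonneg (fx s₁) (fy s₂) W a b z)
    have k6 := mul_nonneg (mb z) (sq_nonneg (a z + b z))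
    have k7 := mul_nonneg (mc z) (sq_nonneg (a z - b z))
    have f1 : nX (fx s₁) W a z = ∑ i, H960.W.XX (fx s₁) W a i z ^ 2 := rfl
    have f2 : nX (fy s₂) W b z = ∑ i, H960.W.XX (fy s₂) W b i z ^ 2 := rfl
    have q1 := mul_le_mul_of_nonneg_right (c₁ z) (Q8.nX_nonneg (fx s₁) W a z)
    have q2 := mul_le_mul_of_nonneg_right (c₂ z) (Q8.nX_nonneg (fy s₂) W b z)
    have q3 := mul_le_mul_of_nonneg_right (c₃ z) (sq_nonneg (a z))
    have q4 := mul_le_mul_of_nonneg_right (c₄ z) (sq_nonneg (b z))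
    have x1 := mul_le_mul_of_nonneg_left (E₁ z (mem_univ z) fun i => H960.W.XX (fx s₁) W a i z).2 hd
    have x2 := mul_le_mul_of_nonneg_left (E₂ z (mem_univ z) fun i => H960.W.XX (fy s₂) W b i z).2 hd
    have g1 : sXX (fx s₁) W a z = ∑ i, ∑ j, (fx s₁).s i j z *
        H960.W.XX (fx s₁) W a i z * H960.W.XX (fx s₁) W a j z := rfl
    have g2 : sXX (fy s₂) W b z = ∑ i, ∑ j, (fy s₂).s i j z *
        H960.W.XX (fy s₂) W b i z * H960.W.XX (fy s₂) W b j z := rfl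
    rw [← g1, ← f1] at x1
    rw [← g2, ← f2] at x2
    have h8 : 0 ≤ K * ((fx s₁).P (fun _ => 0) W a z ^ 2 + (fy s₂).P (fun _ => 0) W b z ^ 2) := by
      positivity
    have e3 : K * sqd (fx s₁) (fy s₂) (fun _ => 0) (fun _ => 0) W a b z =
        K * ((fy s₂).P (fun _ => 0) W a z ^ 2 + (fx s₁).P (fun _ => 0) W b z ^ 2) +
          K * ((fx s₁).P (fun _ => 0) W a z ^ 2 + (fy s₂).P (fun _ => 0) W b z ^ 2) := by
      unfold sqd; ring
    rw [hr]
    unfold fden Q8.dens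
    unfold cy at q3
    unfold cx at q4
    simp only
    rw [← f1, ← f2]
    linarith

/-- **From the zones to the estimate with localised gains.** -/
theorem EstF_zones (hs₁ : SmM s₁) (hs₂ : SmM s₂) (hy₁ : ∀ x, (s₁ x).IsSymm)
    (hy₂ : ∀ x, (s₂ x).IsSymm) (el₁ : El s₁) (el₂ : El s₂) (hW : ContDiff ℝ ∞ W)
    (cw : Continuous w) (hc : ContDiff ℝ ∞ c) (c0 : ∀ x, 0 ≤ c x)
    {α : Type*} (S : Finset α) {χ : α → VV n → ℝ}
    (hχ : ∀ k ∈ S, ContDiff ℝ ∞ (χ k)) (h1 : ∀ z, ∑ k ∈ S, χ k z ^ 2 = 1)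
    {m : Q8 (VV n)} {M co : α → Q8 (VV n)} (cm : m.Ct univ)
    (cM : ∀ k ∈ S, ((M k).sm fun z => χ k z ^ 2).Ct univ) (cc : ∀ k ∈ S, (co k).Ct univ)
    (zone : ∀ k ∈ S, fZone s₁ s₂ (fun _ => 0) (fun _ => 0) W (χ k)
      ((M k).sm fun z => χ k z ^ 2) (co k))
    (pay : ∀ z, ∀ j ∈ S, χ j z ≠ 0 → ∀ a b : VV n → ℝ,
      fden s₁ s₂ (fun _ => 0) (fun _ => 0) W m a b z +
      ∑ k ∈ S, fden s₁ s₂ (fun _ => 0) (fun _ => 0) W (co k) a b z ≤
        fden s₁ s₂ (fun _ => 0) (fun _ => 0) W (M j) a b z)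
    {e G d K : ℝ} (he : 0 ≤ e) (hd : 0 ≤ d) (hK : 0 < K)
    (mκ : ∀ z, K ≤ m.κ z) (my : ∀ z, 0 ≤ m.ζy z) (mb : ∀ z, 0 ≤ m.wb z) (mc : ∀ z, 0 ≤ m.wc z)
    (c₁ : ∀ z, e * c z.1 + 2 * d ≤ m.ζ₁ z) (c₂ : ∀ z, e * c z.2 + 2 * d ≤ m.ζ₂ z)
    (c₃ : ∀ z, w z + G + cy s₁ s₂ W c e d K z ≤ m.w₁ z)
    (c₄ : ∀ z, w z + G + cx s₁ s₂ W c e d K z ≤ m.w₂ z) :
    EstF s₁ s₂ W w e G c := by
  refine EstF_of hs₁ hs₂ hy₁ hy₂ el₁ el₂ hW cw hc c0 cm (fun a b ta tb => ?_) he hd hK mκ my mb mc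
    c₁ c₂ c₃ c₄
  exact H338.E.glue_zone (fx_ok hs₁ hy₁ isOpen_univ) (fy_ok hs₂ hy₂ isOpen_univ)
    (f_cm hs₁ hs₂ isOpen_univ) contDiffOn_const contDiffOn_const (fun z _ k => D_const _ 0 k z)
    (fun z _ i => D_const _ 0 i z) hW.contDiffOn S (fun k hk => (hχ k hk).contDiffOn)
    (fun z _ => h1 z) cm cM cc zone (fun z _ j hj h0 a b => pay z j hj h0 a b) ta tb

end Vale.Agent.P088.R2.H551.E
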