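import Vale.Agent.P088.R2.H551.E.Est
import Vale.Agent.P088.R2.H935.E.Gain
import Vale.Agent.P088.R2.H551.E.GDef

/-!
# P088, stage 3: from zone inequalities to the estimate with gains

`EstG_of`: if `∫ m(a, b) ≤ T(a, b)` for all test functions and the margin `m` pays, pointwise, for
the weight `w` and for the gain lemma of `H935.Gn`, then the estimate of `S4.EBg.est` holds with
`o₁ = o₂ = 1`.
-/

open MeasureTheory Set Filter
open scoped ContDiff Topology Matrix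

noncomputable section

namespace Vale.Agent.P088.R2.H551.E

open Vale.Agent.P088.LR Vale.Agent.P088.HY Vale.Agent.P088.R2.H961.GW
open Vale.Agent.P088.R2.H269 (QX QY PX PY QXv QYv PXv PYv EstP)
open Vale.Agent.P088.S4.H437 (gn)

variable {n : ℕ} {s₁ s₂ : MF n} {v₁ v₂ : V n → ℝ} {W w : VV n → ℝ} {a b : VV n → ℝ}

theorem gn_eq (s₁ s₂ : MF n) (W a b : VV n → ℝ) (z : VV n) :
    ∑ k, H960.W.YY (fy s₂) W a k z ^ 2 + ∑ i, H960.W.YY (fx s₁) W b i z ^ 2 +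
      ∑ i, H960.W.XX (fx s₁) W a i z ^ 2 + ∑ k, H960.W.XX (fy s₂) W b k z ^ 2 + a z ^ 2 +
      b z ^ 2 = gn W a b z := by
  unfold gn H960.W.YY H960.W.XX
  simp only [fx_D, fy_D, Finset.sum_add_distrib]
  have e1 : ∀ i, (HY.dx i a z - HY.dx i W z * a z) ^ 2 =
      (a z * HY.dx i W z - HY.dx i a z) ^ 2 := fun i => by ring
  have e2 : ∀ i, (HY.dy i b z - HY.dy i W z * b z) ^ 2 =
      (b z * HY.dy i W z - HY.dy i b z) ^ 2 := fun i => by ring
  have e3 : ∀ i, (HY.dy i a z + HY.dy i W z * a z) ^ 2 =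
      (HY.dy i a z + a z * HY.dy i W z) ^ 2 := fun i => by ring
  have e4 : ∀ i, (HY.dx i b z + HY.dx i W z * b z) ^ 2 =
      (HY.dx i b z + b z * HY.dx i W z) ^ 2 := fun i => by ring
  simp only [e1, e2, e3, e4]
  ring

/-- Without potentials. -/
theorem TT_flat0 (hs₁ : SmM s₁) (hs₂ : SmM s₂) (hy₁ : ∀ x, (s₁ x).IsSymm)
    (hy₂ : ∀ x, (s₂ x).IsSymm) (hW : ContDiff ℝ ∞ W) (ha : Te univ a) (hb : Te univ b) :
    TT (fx s₁) (fy s₂) univ (fun _ => 1) (fun _ => 0) (fun _ => 0) W a b =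
      ∫ z, ((QX s₁ W a z + QY s₂ W b z) ^ 2 + (PY s₂ W a z - PX s₁ W b z) ^ 2) := by
  have h := TT_flat (v₁ := fun _ => 0) (v₂ := fun _ => 0) hs₁ hs₂ hy₁ hy₂ contDiff_const
    contDiff_const hW ha hb
  rw [h]
  unfold QXv QYv PXv PYv
  simp only [zero_mul, add_zero, one_mul]

/-- Uniform ellipticity of the flat slots. -/
def El (s : MF n) : Prop := ∀ (x : V n) (ξ : Fin n → ℝ),
  1 / 2 * ∑ i, ξ i ^ 2 ≤ ∑ i, ∑ j, s x i j * ξ i * ξ j ∧
    ∑ i, ∑ j, s x i j * ξ i * ξ j ≤ 2 * ∑ i, ξ i ^ 2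

/-- **The bridge with gains.** `e` is the gain, `d` the part of the margins of `|X a|²`, `|X b|²`
which pays for it, `K` the part of the squares. -/
theorem EstG_of (hs₁ : SmM s₁) (hs₂ : SmM s₂) (hy₁ : ∀ x, (s₁ x).IsSymm)
    (hy₂ : ∀ x, (s₂ x).IsSymm) (el₁ : El s₁) (el₂ : El s₂) (hW : ContDiff ℝ ∞ W)
    (cw : Continuous w) {m : Q8 (VV n)} (cm : m.Ct univ)
    (h : ∀ a b, Te univ a → Te univ b → In univ (fun _ => 1)
      (fden s₁ s₂ (fun _ => 0) (fun _ => 0) W m a b) ≤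
      TT (fx s₁) (fy s₂) univ (fun _ => 1) (fun _ => 0) (fun _ => 0) W a b)
    {e d K : ℝ} (he : 0 ≤ e) (hd : 0 ≤ d) (hK : 0 < K)
    (mκ : ∀ z, K ≤ m.κ z) (my : ∀ z, 0 ≤ m.ζy z) (mb : ∀ z, 0 ≤ m.wb z) (mc : ∀ z, 0 ≤ m.wc z)
    (c₁ : ∀ z, e + 2 * d ≤ m.ζ₁ z) (c₂ : ∀ z, e + 2 * d ≤ m.ζ₂ z)
    (c₃ : ∀ z, w z + e + 2 * e * (2 * (fy s₂).F W z - (fy s₂).Λ W z) + e ^ 2 / K ≤
      m.w₁ z + d * ((fx s₁).F W z + (fx s₁).Λ W z))
    (c₄ : ∀ z, w z + e + 2 * e * (2 * (fx s₁).F W z - (fx s₁).Λ W z) + e ^ 2 / K ≤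
      m.w₂ z + d * ((fy s₂).F W z + (fy s₂).Λ W z)) :
    EstG s₁ s₂ W w e := by
  intro a b ha ca hb cb
  have ta : Te univ a := ⟨ha, ca, subset_univ _⟩
  have tb : Te univ b := ⟨hb, cb, subset_univ _⟩
  have ox := fx_ok hs₁ hy₁ (isOpen_univ (X := VV n))
  have oy := fy_ok hs₂ hy₂ (isOpen_univ (X := VV n))
  have z₀ : Sm univ fun _ : VV n => (0 : ℝ) := contDiffOn_const
  have sW : Sm univ W := hW.contDiffOn
  have E₁ : H935.Gn.Ell (fx s₁) univ := fun z _ ξ => el₁ z.1 ξ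
  have E₂ : H935.Gn.Ell (fy s₂) univ := fun z _ ξ => el₂ z.2 ξ
  rw [← TT_flat0 hs₁ hs₂ hy₁ hy₂ hW ta tb]
  refine le_trans ?_ (h a b ta tb)
  have tw : Te univ fun z => a z ^ 2 + b z ^ 2 := (ta.sq isOpen_univ).add isOpen_univ
    (tb.sq isOpen_univ)
  have iw : IntegrableOn (fun z : VV n => 1 * (w z * (a z ^ 2 + b z ^ 2))) univ :=
    ct_int isOpen_univ (θ := fun _ : VV n => (1 : ℝ)) contDiffOn_const cw.continuousOn tw
  have im : IntegrableOn (fun z : VV n => 1 * fden s₁ s₂ (fun _ => 0) (fun _ => 0) W m a b z)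
      univ := Q8.int_dens ox oy z₀ z₀ sW ta tb cm
  have g := H935.Gn.gain_const (σ := fx s₁) (τ := fy s₂) (U := univ) (θ := fun _ => 1)
    (v₁ := fun _ => 0) (v₂ := fun _ => 0) (W := W) (a := a) (b := b) ox oy E₁ E₂ z₀ z₀ sW ta tb
    he hd hK (m := fun z => fden s₁ s₂ (fun _ => 0) (fun _ => 0) W m a b z -
      w z * (a z ^ 2 + b z ^ 2)) (m₁ := m.ζ₁) (m₂ := m.ζ₂) (n₁ := fun z => m.w₁ z - w z)
    (n₂ := fun z => m.w₂ z - w z) ?_ (fun z _ => ?_) (fun z _ => c₁ z) (fun z _ => c₂ z)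
    (fun z _ => ?_) fun z _ => ?_
  · have e0 : In univ (fun _ => 1) (fun z => fden s₁ s₂ (fun _ => 0) (fun _ => 0) W m a b z -
        w z * (a z ^ 2 + b z ^ 2)) = In univ (fun _ => 1)
        (fden s₁ s₂ (fun _ => 0) (fun _ => 0) W m a b) -
          ∫ z, w z * (a z ^ 2 + b z ^ 2) := by
      rw [In_univ, In_univ]
      refine integral_sub ?_ ?_
      · simpa [IntegrableOn] using im
      · simpa [IntegrableOn] using iw
    rw [e0, In_univ] at g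
    simp only [gn_eq s₁ s₂] at g
    linarith
  · have := im.sub iw
    refine this.congr_fun (fun z _ => ?_) MeasurableSet.univ
    simp only [Pi.sub_apply]
    ring
  · unfold fden Q8.dens
    have k0 := mul_le_mul_of_nonneg_right (mκ z) (sqd_nonneg (fx s₁) (fy s₂) (fun _ => 0)
      (fun _ => 0) W a b z)
    have k3 := mul_nonneg (my z) (Q8.nY_nonneg (fx s₁) (fy s₂) W a b z)
    have k6 := mul_nonneg (mb z) (sq_nonneg (a z + b z))
    have k7 := mul_nonneg (mc z) (sq_nonneg (a z - b z))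
    have e1 : nX (fx s₁) W a z = ∑ i, H960.W.XX (fx s₁) W a i z ^ 2 := rfl
    have e2 : nX (fy s₂) W b z = ∑ i, H960.W.XX (fy s₂) W b i z ^ 2 := rfl
    rw [← e1, ← e2]
    linarith
  · have := c₃ z
    simp only [add_zero]
    linarith
  · have := c₄ z
    simp only [add_zero]
    linarith

end Vale.Agent.P088.R2.H551.E
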