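import Vale.Agent.P088.R2.H551.E.Br
import Vale.Agent.P088.R2.H338.E.Pay
import Vale.Agent.P088.R2.H269.X.Spec

/-!
# P088, stage 3: from zone inequalities to `EstP`

`EstP_of`: `∫ m(a, b) ≤ T(a, b)` for all test functions and `w (a² + b²) ≤ m(a, b)` give `EstP`
with the weight `1` of the second square. `EstP_zones`: the same from a partition of `V n × V n`,
zone inequalities and the payment zone by zone.
-/

open MeasureTheory Set Filter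
open scoped ContDiff Topology Matrix

noncomputable section

namespace Vale.Agent.P088.R2.H551.E

open Vale.Agent.P088.LR Vale.Agent.P088.HY Vale.Agent.P088.R2.H961.GW
open Vale.Agent.P088.R2.H269 (QXv QYv PXv PYv EstP)

variable {n : ℕ} {s₁ s₂ : MF n} {v₁ v₂ : V n → ℝ} {W w : VV n → ℝ}

/-- The density of the currency in the flat slots. -/
abbrev fden (s₁ s₂ : MF n) (v₁ v₂ : V n → ℝ) (W : VV n → ℝ) (q : Q8 (VV n)) (a b : VV n → ℝ) :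
    VV n → ℝ := q.dens (fx s₁) (fy s₂) (fun z => v₁ z.1) (fun z => v₂ z.2) W a b

/-- A zone inequality in the flat slots, on the whole space. -/
abbrev fZone (s₁ s₂ : MF n) (v₁ v₂ : V n → ℝ) (W χ : VV n → ℝ) (mg co : Q8 (VV n)) : Prop :=
  Zone (fx s₁) (fy s₂) univ (fun _ => 1) (fun z => v₁ z.1) (fun z => v₂ z.2) W χ mg co

/-- **The bridge.** -/
theorem EstP_of (hs₁ : SmM s₁) (hs₂ : SmM s₂) (hy₁ : ∀ x, (s₁ x).IsSymm)
    (hy₂ : ∀ x, (s₂ x).IsSymm) (hv₁ : ContDiff ℝ ∞ v₁) (hv₂ : ContDiff ℝ ∞ v₂)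
    (hW : ContDiff ℝ ∞ W) (cw : Continuous w) {m : Q8 (VV n)} (cm : m.Ct univ)
    (hw : ∀ a b z, w z * (a z ^ 2 + b z ^ 2) ≤ fden s₁ s₂ v₁ v₂ W m a b z)
    (h : ∀ a b, Te univ a → Te univ b → In univ (fun _ => 1) (fden s₁ s₂ v₁ v₂ W m a b) ≤
      TT (fx s₁) (fy s₂) univ (fun _ => 1) (fun z => v₁ z.1) (fun z => v₂ z.2) W a b) :
    EstP s₁ s₂ v₁ v₂ W w 1 := by
  intro a b ha ca hb cb
  have ta : Te univ a := ⟨ha, ca, subset_univ _⟩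
  have tb : Te univ b := ⟨hb, cb, subset_univ _⟩
  have ox := fx_ok hs₁ hy₁ (isOpen_univ (X := VV n))
  have oy := fy_ok hs₂ hy₂ (isOpen_univ (X := VV n))
  have w₁ : Sm univ fun z : VV n => v₁ z.1 := (hv₁.comp contDiff_fst).contDiffOn
  have w₂ : Sm univ fun z : VV n => v₂ z.2 := (hv₂.comp contDiff_snd).contDiffOn
  rw [← TT_flat hs₁ hs₂ hy₁ hy₂ hv₁ hv₂ hW ta tb]
  refine le_trans ?_ (h a b ta tb)
  rw [In_univ]
  refine integral_mono ?_ ?_ fun z => hw a b z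
  · have e : Te univ fun z => a z ^ 2 + b z ^ 2 := (ta.sq isOpen_univ).add isOpen_univ
      (tb.sq isOpen_univ)
    have := ct_int isOpen_univ (θ := fun _ : VV n => (1 : ℝ)) contDiffOn_const
      cw.continuousOn e
    simpa [IntegrableOn] using this
  · have := Q8.int_dens ox oy w₁ w₂ hW.contDiffOn ta tb cm
    simpa [IntegrableOn] using this

/-- **From the zones to the a priori estimate.** -/
theorem EstP_zones (hs₁ : SmM s₁) (hs₂ : SmM s₂) (hy₁ : ∀ x, (s₁ x).IsSymm)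
    (hy₂ : ∀ x, (s₂ x).IsSymm) (hv₁ : ContDiff ℝ ∞ v₁) (hv₂ : ContDiff ℝ ∞ v₂)
    (hW : ContDiff ℝ ∞ W) (cw : Continuous w) {α : Type*} (S : Finset α) {χ : α → VV n → ℝ}
    (hχ : ∀ k ∈ S, ContDiff ℝ ∞ (χ k)) (h1 : ∀ z, ∑ k ∈ S, χ k z ^ 2 = 1)
    {m : Q8 (VV n)} {M co : α → Q8 (VV n)} (cm : m.Ct univ)
    (cM : ∀ k ∈ S, ((M k).sm fun z => χ k z ^ 2).Ct univ) (cc : ∀ k ∈ S, (co k).Ct univ)
    (zone : ∀ k ∈ S, fZone s₁ s₂ v₁ v₂ W (χ k) ((M k).sm fun z => χ k z ^ 2) (co k))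
    (pay : ∀ z, ∀ j ∈ S, χ j z ≠ 0 → ∀ a b : VV n → ℝ, fden s₁ s₂ v₁ v₂ W m a b z +
      ∑ k ∈ S, fden s₁ s₂ v₁ v₂ W (co k) a b z ≤ fden s₁ s₂ v₁ v₂ W (M j) a b z)
    (hw : ∀ a b z, w z * (a z ^ 2 + b z ^ 2) ≤ fden s₁ s₂ v₁ v₂ W m a b z) :
    EstP s₁ s₂ v₁ v₂ W w 1 := by
  refine EstP_of hs₁ hs₂ hy₁ hy₂ hv₁ hv₂ hW cw cm hw fun a b ta tb => ?_
  exact H338.E.glue_zone (fx_ok hs₁ hy₁ isOpen_univ) (fy_ok hs₂ hy₂ isOpen_univ)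
    (f_cm hs₁ hs₂ isOpen_univ) ((hv₁.comp contDiff_fst).contDiffOn)
    ((hv₂.comp contDiff_snd).contDiffOn) (fun z _ k => fy_fst hv₁ k z)
    (fun z _ i => fx_snd hv₂ i z) hW.contDiffOn S (fun k hk => (hχ k hk).contDiffOn)
    (fun z _ => h1 z) cm cM cc zone (fun z _ j hj h0 a b => pay z j hj h0 a b) ta tb

/-- The weight of `EstP` from the margin: the sufficient coefficient form. -/
theorem hw_of {m : Q8 (VV n)} (hκ : ∀ z, 0 ≤ m.κ z) (h₁ : ∀ z, 0 ≤ m.ζ₁ z) (h₂ : ∀ z, 0 ≤ m.ζ₂ z)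
    (h₃ : ∀ z, 0 ≤ m.ζy z) (hw₁ : ∀ z, w z ≤ m.w₁ z) (hw₂ : ∀ z, w z ≤ m.w₂ z)
    (hb : ∀ z, 0 ≤ m.wb z) (hc : ∀ z, 0 ≤ m.wc z) (a b : VV n → ℝ) (z : VV n) :
    w z * (a z ^ 2 + b z ^ 2) ≤ fden s₁ s₂ v₁ v₂ W m a b z := by
  unfold fden Q8.dens
  have k0 := mul_nonneg (hκ z) (sqd_nonneg (fx s₁) (fy s₂) (fun z => v₁ z.1)
    (fun z => v₂ z.2) W a b z)
  have k1 := mul_nonneg (h₁ z) (Q8.nX_nonneg (fx s₁) W a z)
  have k2 := mul_nonneg (h₂ z) (Q8.nX_nonneg (fy s₂) W b z)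
  have k3 := mul_nonneg (h₃ z) (Q8.nY_nonneg (fx s₁) (fy s₂) W a b z)
  have k4 := mul_le_mul_of_nonneg_right (hw₁ z) (sq_nonneg (a z))
  have k5 := mul_le_mul_of_nonneg_right (hw₂ z) (sq_nonneg (b z))
  have k6 := mul_nonneg (hb z) (sq_nonneg (a z + b z))
  have k7 := mul_nonneg (hc z) (sq_nonneg (a z - b z))
  linarith

end Vale.Agent.P088.R2.H551.E
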