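import Vale.Agent.P088.R2.H551.E.EstF
import Vale.Agent.P088.R2.H561.S4.SpecH

/-!
# P088, stage 3: from the estimate in rate units to the clause `est` of `S4.EBh`
-/

open MeasureTheory Set Filter
open scoped ContDiff Topology Matrix

noncomputable section

namespace Vale.Agent.P088.R2.H551.E

open Vale.Agent.P088.LR Vale.Agent.P088.HY
open Vale.Agent.P088.R2.H269 (QX QY PX PY)

variable {n : ℕ} {s₁ s₂ : MF n} {W : VV n → ℝ} {R : ℝ}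

theorem c2_S4 : (c2 : V n → ℝ) = S4.c2 := rfl

theorem gf_S4 : (gf : (VV n → ℝ) → (VV n → ℝ) → (VV n → ℝ) → VV n → ℝ) = S4.gf := rfl

/-- **The clause `est` of `EBh`** from the estimate in rate units, `o₁ = o₂ = 1`. -/
theorem estH_unit (hR : 0 < R) (k : ℝ) {g G g₀ G₀ C₂ : ℝ} {w' : VV n → ℝ} (cw : Continuous w')
    (h : EstF (fun x => s₁ (R⁻¹ • x)) (fun x => s₂ (R⁻¹ • x)) W w' g G
      (fun x => S4.c2 (R⁻¹ • x)))
    (hg : g₀ ≤ R ^ 2 * g) (hG : G₀ ≤ R ^ 4 * G) (hC : 1 ≤ C₂) :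
    ∃ o₁ o₂ : VV n → ℝ, Continuous o₁ ∧ Continuous o₂ ∧ (∀ z, 0 < o₁ z ∧ o₁ z ≤ C₂) ∧
    (∀ z, 0 < o₂ z ∧ o₂ z ≤ C₂) ∧
    ∀ a₁ a₂ : VV n → ℝ, ContDiff ℝ ∞ a₁ → HasCompactSupport a₁ → ContDiff ℝ ∞ a₂ →
      HasCompactSupport a₂ →
      (∫ z, (R ^ 4 * w' (R • z)) * (a₁ z ^ 2 + a₂ z ^ 2)) +
          g₀ * (∫ z, S4.gf (fun z => W (R • z) - k) a₁ a₂ z) +
          G₀ * (∫ z, (a₁ z ^ 2 + a₂ z ^ 2)) ≤
        ∫ z, (o₁ z * (QX s₁ (fun z => W (R • z) - k) a₁ z +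
          QY s₂ (fun z => W (R • z) - k) a₂ z) ^ 2 +
          o₂ z * (PY s₂ (fun z => W (R • z) - k) a₁ z -
          PX s₁ (fun z => W (R • z) - k) a₂ z) ^ 2) := by
  have h1 := EstF_unit (c := c2) hR k h
  have cw' : Continuous fun z : VV n => R ^ 4 * w' (R • z) :=
    continuous_const.mul (cw.comp (continuous_const_smul R))
  have h2 := h1.mono hg hG c2_nonneg cw' cw' fun z => le_rfl
  exact h2.est hC

end Vale.Agent.P088.R2.H551.E
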