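import Vale.Agent.P088.R2.H551.E.EstG

/-!
# P088, stage 3: from the zones to the estimate with gains, in one theorem
-/

open MeasureTheory Set Filter
open scoped ContDiff Topology Matrix

noncomputable section

namespace Vale.Agent.P088.R2.H551.E

open Vale.Agent.P088.LR Vale.Agent.P088.HY Vale.Agent.P088.R2.H961.GW

variable {n : ℕ} {s₁ s₂ : MF n} {W w : VV n → ℝ} {a b : VV n → ℝ}

/-- Tensors near the unit tensor are elliptic. -/
theorem el_of {s : MF n} {ε : ℝ} (hε : (n : ℝ) * ε ≤ 1 / 2)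
    (h : ∀ x i j, |s x i j - (1 : Matrix (Fin n) (Fin n) ℝ) i j| ≤ ε) : El s := by
  intro x ξ
  obtain ⟨N, hN⟩ : ∃ N, N = ∑ i, ξ i ^ 2 := ⟨_, rfl⟩
  have hN0 : 0 ≤ N := by rw [hN]; positivity
  obtain ⟨D, hD⟩ : ∃ D, D = ∑ i, ∑ j,
      (s x i j - (1 : Matrix (Fin n) (Fin n) ℝ) i j) * ξ i * ξ j := ⟨_, rfl⟩
  have e1 : ∑ i, ∑ j, s x i j * ξ i * ξ j = N + D := by
    have e2 : ∑ i, ∑ j, (1 : Matrix (Fin n) (Fin n) ℝ) i j * ξ i * ξ j = N := by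
      rw [hN]
      refine Finset.sum_congr rfl fun i _ => ?_
      rw [Finset.sum_eq_single i]
      · rw [Matrix.one_apply_eq]; ring
      · intro j _ hj
        rw [Matrix.one_apply_ne (Ne.symm hj)]; ring
      · intro h; exact absurd (Finset.mem_univ i) h
    rw [hD, ← e2, ← Finset.sum_add_distrib]
    refine Finset.sum_congr rfl fun i _ => ?_
    rw [← Finset.sum_add_distrib]
    refine Finset.sum_congr rfl fun j _ => ?_
    ring
  have hε0 : ∀ i j : Fin n, 0 ≤ ε := fun i j => (abs_nonneg _).trans (h x i j)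
  have e3 : |D| ≤ n * ε * N := by
    rw [hD]
    calc |∑ i, ∑ j, (s x i j - (1 : Matrix (Fin n) (Fin n) ℝ) i j) * ξ i * ξ j|
        ≤ ∑ i, ∑ j, ε * ((ξ i ^ 2 + ξ j ^ 2) / 2) := by
          refine (Finset.abs_sum_le_sum_abs _ _).trans (Finset.sum_le_sum fun i _ => ?_)
          refine (Finset.abs_sum_le_sum_abs _ _).trans (Finset.sum_le_sum fun j _ => ?_)
          rw [mul_assoc, abs_mul]
          have h1 : |ξ i * ξ j| ≤ (ξ i ^ 2 + ξ j ^ 2) / 2 := by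
            rw [abs_le]
            constructor <;> nlinarith [sq_nonneg (ξ i + ξ j), sq_nonneg (ξ i - ξ j)]
          exact mul_le_mul (h x i j) h1 (abs_nonneg _) (hε0 i j)
      _ = n * ε * N := by
          rw [hN]
          simp only [add_div, mul_add, Finset.sum_add_distrib, Finset.sum_const, Finset.card_univ,
            Fintype.card_fin, nsmul_eq_mul, ← Finset.mul_sum, ← Finset.sum_div]
          ring
  have e4 : n * ε * N ≤ 1 / 2 * N := mul_le_mul_of_nonneg_right hε hN0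
  have e5 := abs_le.1 (e3.trans e4)
  rw [e1, ← hN]
  constructor <;> linarith [e5.1, e5.2]

/-- **From the zones to the estimate with gains.** The zones have margins `M_k` (valid where
`χ_k ≠ 0`) and costs `co_k`; `m` is the total margin. -/
theorem EstG_zones (hs₁ : SmM s₁) (hs₂ : SmM s₂) (hy₁ : ∀ x, (s₁ x).IsSymm)
    (hy₂ : ∀ x, (s₂ x).IsSymm) (el₁ : El s₁) (el₂ : El s₂) (hW : ContDiff ℝ ∞ W)
    (cw : Continuous w) {α : Type*} (S : Finset α) {χ : α → VV n → ℝ}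
    (hχ : ∀ k ∈ S, ContDiff ℝ ∞ (χ k)) (h1 : ∀ z, ∑ k ∈ S, χ k z ^ 2 = 1)
    {m : Q8 (VV n)} {M co : α → Q8 (VV n)} (cm : m.Ct univ)
    (cM : ∀ k ∈ S, ((M k).sm fun z => χ k z ^ 2).Ct univ) (cc : ∀ k ∈ S, (co k).Ct univ)
    (zone : ∀ k ∈ S, fZone s₁ s₂ (fun _ => 0) (fun _ => 0) W (χ k)
      ((M k).sm fun z => χ k z ^ 2) (co k))
    (pay : ∀ z, ∀ j ∈ S, χ j z ≠ 0 → ∀ a b : VV n → ℝ,
      fden s₁ s₂ (fun _ => 0) (fun _ => 0) W m a b z +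
      ∑ k ∈ S, fden s₁ s₂ (fun _ => 0) (fun _ => 0) W (co k) a b z ≤
        fden s₁ s₂ (fun _ => 0) (fun _ => 0) W (M j) a b z)
    {e d K : ℝ} (he : 0 ≤ e) (hd : 0 ≤ d) (hK : 0 < K)
    (mκ : ∀ z, K ≤ m.κ z) (my : ∀ z, 0 ≤ m.ζy z) (mb : ∀ z, 0 ≤ m.wb z) (mc : ∀ z, 0 ≤ m.wc z)
    (c₁ : ∀ z, e + 2 * d ≤ m.ζ₁ z) (c₂ : ∀ z, e + 2 * d ≤ m.ζ₂ z)
    (c₃ : ∀ z, w z + e + 2 * e * (2 * (fy s₂).F W z - (fy s₂).Λ W z) + e ^ 2 / K ≤
      m.w₁ z + d * ((fx s₁).F W z + (fx s₁).Λ W z))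
    (c₄ : ∀ z, w z + e + 2 * e * (2 * (fx s₁).F W z - (fx s₁).Λ W z) + e ^ 2 / K ≤
      m.w₂ z + d * ((fy s₂).F W z + (fy s₂).Λ W z)) :
    EstG s₁ s₂ W w e := by
  refine EstG_of hs₁ hs₂ hy₁ hy₂ el₁ el₂ hW cw cm (fun a b ta tb => ?_) he hd hK mκ my mb mc
    c₁ c₂ c₃ c₄
  exact H338.E.glue_zone (fx_ok hs₁ hy₁ isOpen_univ) (fy_ok hs₂ hy₂ isOpen_univ)
    (f_cm hs₁ hs₂ isOpen_univ) contDiffOn_const contDiffOn_const (fun z _ k => D_const _ 0 k z)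
    (fun z _ i => D_const _ 0 i z) hW.contDiffOn S (fun k hk => (hχ k hk).contDiffOn)
    (fun z _ => h1 z) cm cM cc zone (fun z _ j hj h0 a b => pay z j hj h0 a b) ta tb

end Vale.Agent.P088.R2.H551.E
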